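import Mathlib.RingTheory.Algebraic.Basic
import Mathlib.RingTheory.TensorProduct.Free
import Mathlib.LinearAlgebra.TensorProduct.Finiteness
import Mathlib.LinearAlgebra.Matrix.NonsingularInverse
import Mathlib.Algebra.MvPolynomial.Equiv
import Mathlib.Data.Set.Countable
import Mathlib.RingTheory.TensorProduct.Maps
import Mathlib.LinearAlgebra.Dual.Lemmas
import Mathlib.LinearAlgebra.Matrix.ToLinearEquiv

/-!
Extension of scalars of an algebraic algebra over an uncountable field stays algebraic.
-/

open scoped TensorProduct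

namespace Vale.Agent.P199

variable {F : Type*} [Field F]

lemma exists_eval_ne_zero [Uncountable F] : ∀ (m : ℕ) {ι : Type} [Countable ι]
    (P : ι → MvPolynomial (Fin m) F), (∀ i, P i ≠ 0) →
    ∃ s : Fin m → F, ∀ i, MvPolynomial.eval s (P i) ≠ 0 := by
  intro m
  induction m with
  | zero =>
    intro ι _ P hP
    refine ⟨fun i => i.elim0, fun i hi => hP i ?_⟩
    obtain ⟨a, ha⟩ := MvPolynomial.C_surjective (Fin 0) (P i)
    rw [← ha] at hi ⊢
    simp only [MvPolynomial.eval_C] at hi
    simp [hi]
  | succ m ih =>
    intro ι _ P hP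
    let Q := fun i => MvPolynomial.finSuccEquiv F m (P i)
    have hQ : ∀ i, Q i ≠ 0 := fun i => by simpa [Q] using hP i
    obtain ⟨s', hs'⟩ := ih (fun i => (Q i).leadingCoeff)
      (fun i => Polynomial.leadingCoeff_ne_zero.2 (hQ i))
    let q := fun i => (Q i).map (MvPolynomial.eval s')
    have hq : ∀ i, q i ≠ 0 := fun i h => by
      have := congrArg (fun p => Polynomial.coeff p (Q i).natDegree) h
      rw [Polynomial.coeff_map, Polynomial.coeff_zero] at this
      exact hs' i this
    have hc : (⋃ i, {y : F | (q i).IsRoot y}).Countable :=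
      Set.countable_iUnion fun i => (Polynomial.finite_setOfPred_isRoot (hq i)).countable
    obtain ⟨y, hy⟩ : ∃ y, y ∉ ⋃ i, {y : F | (q i).IsRoot y} := by
      by_contra! h
      have : (Set.univ : Set F).Countable := hc.mono (fun y _ => h y)
      exact not_countable (α := F) (Set.countable_univ_iff.1 this)
    refine ⟨Fin.cons y s', fun i h => hy (Set.mem_iUnion.2 ⟨i, ?_⟩)⟩
    rw [MvPolynomial.eval_eq_eval_mv_eval'] at h
    simpa [q, Q] using h

lemma exists_minor {L ι : Type*} [Field L] {n : ℕ} {c : Fin n → ι → L}
    (h : LinearIndependent L c) :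
    ∃ j : Fin n → ι, (Matrix.of fun k l => c k (j l)).det ≠ 0 := by
  classical
  let s : Set (Fin n → L) := Set.range fun j k => c k j
  have htop : Submodule.span L s = ⊤ := by
    by_contra hne
    obtain ⟨f, hf0, hf⟩ := Submodule.exists_dual_map_eq_bot_of_lt_top
      (lt_top_iff_ne_top.2 hne) inferInstance
    apply hf0
    have hrel : ∑ k, f (Pi.single k 1) • c k = 0 := by
      funext j
      have hmem : f (fun k => c k j) = 0 := by
        have := Submodule.mem_map_of_mem (f := f)
          (Submodule.subset_span (R := L) (s := s) ⟨j, rfl⟩)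
        rw [hf] at this
        simpa using this
      rw [pi_eq_sum_univ' (fun k => c k j), map_sum] at hmem
      simpa [Finset.sum_apply, mul_comm] using hmem
    have := Fintype.linearIndependent_iff.1 h _ hrel
    refine LinearMap.pi_ext fun k x => ?_
    have hx : (Pi.single k x : Fin n → L) = x • Pi.single k 1 := by
      funext l; by_cases hl : l = k <;> simp [hl]
    rw [hx, map_smul, this k]; simp
  obtain ⟨v, hv, -, hvi⟩ := Submodule.exists_fun_fin_finrank_span_eq L s
  have hn : Module.finrank L (Submodule.span L s) = n := by rw [htop]; simp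
  choose j hj using hv
  refine ⟨fun l => j (Fin.cast hn.symm l), ?_⟩
  have hA : LinearIndependent L
      (Matrix.of fun k l => c k (j (Fin.cast hn.symm l))).col := by
    have e : (Matrix.of fun k l => c k (j (Fin.cast hn.symm l))).col
        = v ∘ Fin.cast hn.symm := by
      funext l k
      simp [← hj, Matrix.col]
    rw [e]
    exact hvi.comp (Fin.cast hn.symm) (Fin.cast_injective _)
  exact ((Matrix.isUnit_iff_isUnit_det _).1
    (Matrix.linearIndependent_cols_iff_isUnit.1 hA)).ne_zero

variable [Uncountable F] {L D : Type*} [Field L] [Algebra F L] [Ring D] [Algebra F D]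

/-- Over an uncountable field, algebraicity survives extension of scalars. -/
theorem isAlgebraic_tensor [Algebra.IsAlgebraic F D] :
    Algebra.IsAlgebraic L (L ⊗[F] D) := by
  constructor
  intro u
  by_contra hu
  obtain ⟨S, rfl⟩ := TensorProduct.exists_finset u
  let e := S.equivFin.symm
  let lam : Fin S.card → L := fun i => (e i).1.1
  let d : Fin S.card → D := fun i => (e i).1.2
  let P := MvPolynomial (Fin S.card) F
  let bD := Module.Basis.ofVectorSpace F D
  let U : P ⊗[F] D := ∑ i, MvPolynomial.X i ⊗ₜ[F] d i
  let φ : P →ₐ[F] L := MvPolynomial.aeval lam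
  let Φ : P ⊗[F] D →ₐ[F] L ⊗[F] D := Algebra.TensorProduct.map φ (AlgHom.id F D)
  set u := ∑ i ∈ S, i.1 ⊗ₜ[F] i.2
  have hU : Φ U = u := by
    simp only [U, Φ, map_sum, Algebra.TensorProduct.map_tmul, AlgHom.coe_id, id_eq]
    simp only [φ, lam, d]
    conv_lhs => enter [2, i]; erw [MvPolynomial.aeval_X]
    rw [Equiv.sum_comp e (fun i : S => i.1.1 ⊗ₜ[F] i.1.2)]
    exact Finset.sum_coe_sort S (fun i => i.1 ⊗ₜ[F] i.2)
  let co : ℕ → _ → P := fun k j => (Algebra.TensorProduct.basis P bD).repr (U ^ k) j
  have repr_map : ∀ (x : P ⊗[F] D) j,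
      (Algebra.TensorProduct.basis L bD).repr (Φ x) j
        = φ ((Algebra.TensorProduct.basis P bD).repr x j) := by
    intro x j
    induction x using TensorProduct.induction_on with
    | zero => simp
    | tmul p y =>
      simp [Φ, Algebra.TensorProduct.map_tmul, Algebra.TensorProduct.basis_repr_tmul,
        Finsupp.smul_apply, Finsupp.mapRange_apply]
    | add x y hx hy => simp [hx, hy]
  have hind : LinearIndependent L fun k : ℕ => u ^ k := by
    rw [linearIndependent_iff]
    intro l hl
    by_contra hl0
    apply hu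
    refine ⟨⟨AddMonoidAlgebra.ofCoeff l⟩, fun h => hl0 ?_, ?_⟩
    · simpa using congrArg (fun p => p.toFinsupp.coeff) h
    · rw [Finsupp.linearCombination_apply] at hl
      rw [Polynomial.aeval_def, Polynomial.eval₂_eq_sum, Polynomial.sum_def]
      rw [← hl]
      simp [Finsupp.sum, Algebra.smul_def, Polynomial.support, Polynomial.coeff]
  have hQ : ∀ N : ℕ, ∃ j : Fin (N + 1) → _,
      (Matrix.of fun k l => co (k : Fin (N + 1)).1 (j l)).det ≠ 0 := by
    intro N
    have h1 : LinearIndependent L fun (k : Fin (N + 1)) j => φ (co k.1 j) := by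
      have h2 := (hind.comp (fun k : Fin (N + 1) => k.1) Fin.val_injective).map'
        (((Finsupp.lcoeFun : _ →ₗ[L] _)).comp
          (Algebra.TensorProduct.basis L bD).repr.toLinearMap)
        (by
          rw [LinearMap.ker_eq_bot]
          exact DFunLike.coe_injective.comp (Algebra.TensorProduct.basis L bD).repr.injective)
      have e1 : (fun (k : Fin (N + 1)) j => φ (co k.1 j)) =
          ⇑((Finsupp.lcoeFun : _ →ₗ[L] _).comp
            (Algebra.TensorProduct.basis L bD).repr.toLinearMap) ∘ (fun k => u ^ k) ∘
            (fun k : Fin (N + 1) => k.1) := by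
        funext k j
        simp [co, ← repr_map, map_pow, hU]
      rw [e1]
      exact h2
    obtain ⟨j, hj⟩ := exists_minor h1
    refine ⟨j, fun h0 => hj ?_⟩
    have := congrArg φ h0
    rw [AlgHom.map_det, map_zero] at this
    exact this
  choose j hj using hQ
  obtain ⟨s, hs⟩ := exists_eval_ne_zero S.card
    (fun N : ℕ => (Matrix.of fun k l => co (k : Fin (N + 1)).1 (j N l)).det) hj
  let ψ : P ⊗[F] D →ₐ[F] D := Algebra.TensorProduct.lift
    ((Algebra.ofId F D).comp (MvPolynomial.aeval s)) (AlgHom.id F D)
    (fun p y => Algebra.commute_algebraMap_left _ _)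
  have repr_eval : ∀ (x : P ⊗[F] D) i,
      bD.repr (ψ x) i = MvPolynomial.eval s ((Algebra.TensorProduct.basis P bD).repr x i) := by
    intro x i
    induction x using TensorProduct.induction_on with
    | zero => simp
    | tmul p y =>
      simp only [ψ, Algebra.TensorProduct.basis_repr_tmul]
      erw [Algebra.TensorProduct.lift_tmul]
      simp only [AlgHom.coe_comp, Function.comp_apply, Algebra.ofId_apply, AlgHom.coe_id, id_eq,
        ← Algebra.smul_def, map_smul, Finsupp.smul_apply, Finsupp.mapRange_apply, smul_eq_mul,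
        map_mul]
      rw [MvPolynomial.algebraMap_eq]
      erw [MvPolynomial.eval_C]
      rfl
    | add x y hx hy => simp [hx, hy]
  obtain ⟨p, hp0, hp⟩ := Algebra.IsAlgebraic.isAlgebraic (R := F) (ψ U)
  apply hs p.natDegree
  rw [RingHom.map_det, ← Matrix.exists_vecMul_eq_zero_iff]
  refine ⟨fun k => p.coeff k.1, ?_, ?_⟩
  · intro h
    apply hp0
    rw [← Polynomial.leadingCoeff_eq_zero]
    exact congrFun h ⟨p.natDegree, Nat.lt_succ_self _⟩
  · funext l
    rw [Polynomial.aeval_eq_sum_range] at hp
    have := congrArg (fun x => bD.repr x (j p.natDegree l)) hp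
    simp only [map_sum, map_smul, Finsupp.coe_finsetSum, Finset.sum_apply, map_zero,
      Finsupp.smul_apply, Finsupp.coe_zero, Pi.zero_apply, smul_eq_mul] at this
    simp only [Matrix.vecMul, dotProduct, RingHom.mapMatrix_apply, Matrix.map_apply,
      Matrix.of_apply, Pi.zero_apply, co, ← repr_eval, map_pow]
    rw [← Fin.sum_univ_eq_sum_range (fun k => p.coeff k * bD.repr (ψ U ^ k) (j p.natDegree l))] at this
    exact this

end Vale.Agent.P199
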