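import Vale.Agent.P199.Step
import Mathlib.FieldTheory.Galois.Basic
import Mathlib.GroupTheory.Sylow
import Mathlib.GroupTheory.IndexNormal
import Mathlib.Data.Nat.Factorization.Basic
import Mathlib.RingTheory.Adjoin.Basic
import Mathlib.RingTheory.IntegralClosure.Algebra.Basic

/-!
Over a field without noncommutative finite-dimensional division algebras, the degree of a
Galois extension divides the size of each of its matrix representations over an algebraic
division algebra.
-/

universe u

namespace Vale.Agent.P199

/-- every finite-dimensional division algebra over `Z` is commutative -/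
def CommDiv (Z : Type u) [Field Z] : Prop :=
  ∀ (B : Type u) [DivisionRing B] [Algebra Z B], FiniteDimensional Z B → ∀ x y : B, x * y = y * x

lemma CommDiv.of_finite {Z L : Type u} [Field Z] [Field L] [Algebra Z L] [FiniteDimensional Z L]
    (h : CommDiv Z) : CommDiv L := by
  intro B _ _ hB
  let _ : Algebra Z B := Algebra.compHom B (algebraMap Z L)
  have : IsScalarTower Z L B := IsScalarTower.of_algebraMap_eq fun _ => rfl
  exact h B (Module.Finite.trans L B)

variable {Z D : Type u} [Field Z] [DivisionRing D] [Algebra Z D] [Algebra.IsAlgebraic Z D]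

omit [Algebra.IsAlgebraic Z D] in
lemma comm_of_finite_subalgebra (hZ : CommDiv Z) (S : Subalgebra Z D) [FiniteDimensional Z S]
    {x y : D} (hx : x ∈ S) (hy : y ∈ S) : x * y = y * x := by
  let _ : DivisionRing S := divisionRingOfFiniteDimensional Z S
  have := hZ S ‹_› ⟨x, hx⟩ ⟨y, hy⟩
  exact congrArg Subtype.val this

variable [Algebra.IsCentral Z D]

lemma finrank_eq_one_of_embedding (hZ : CommDiv Z) {M : Type u} [Field M] [Algebra Z M]
    [FiniteDimensional Z M] [IsGalois Z M] (φ : M →ₐ[Z] D) : Module.finrank Z M = 1 := by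
  rw [← IsGalois.card_aut_eq_finrank, Nat.card_eq_one_iff_unique]
  refine ⟨⟨fun σ τ => ?_⟩, ⟨1⟩⟩
  suffices h : ∀ σ : M ≃ₐ[Z] M, σ = 1 by rw [h σ, h τ]
  clear σ τ
  intro σ
  obtain ⟨x, hx0, hx⟩ := exists_conj φ (φ.comp σ.toAlgHom)
  let P := φ.range.toSubmodule
  let X := (Algebra.adjoin Z {x}).toSubmodule
  have hXX : ∀ {a b}, a ∈ X → b ∈ X → a * b ∈ X := fun ha hb => mul_mem (S := Subalgebra Z D) ha hb
  have hPX : ∀ p ∈ P, ∀ q ∈ X, q * p ∈ P * X := by
    intro p hp q hq
    revert p
    induction hq using Algebra.adjoin_induction with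
    | mem y hy =>
      rintro p ⟨l, rfl⟩
      rw [Set.mem_singleton_iff.1 hy]
      have h : x * φ l = φ (σ.symm l) * x := by
        have := hx (σ.symm l)
        simpa using this.symm
      show x * φ l ∈ P * X
      rw [h]
      exact Submodule.mul_mem_mul ⟨_, rfl⟩ (Algebra.self_mem_adjoin_singleton Z x)
    | algebraMap z =>
      intro p hp
      rw [Algebra.commutes]
      exact Submodule.mul_mem_mul hp ((Algebra.adjoin Z {x}).algebraMap_mem z)
    | add a b _ _ ha hb =>
      intro p hp
      rw [add_mul]
      exact add_mem (ha p hp) (hb p hp)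
    | mul a b _ _ ha hb =>
      intro p hp
      rw [mul_assoc]
      refine Submodule.mul_induction_on (hb p hp) (fun p' hp' x' hx' => ?_)
        (fun u v hu hv => by rw [mul_add]; exact add_mem hu hv)
      rw [← mul_assoc]
      refine Submodule.mul_induction_on (ha p' hp') (fun p'' hp'' x'' hx'' => ?_)
        (fun u v hu hv => by rw [add_mul]; exact add_mem hu hv)
      rw [mul_assoc]
      exact Submodule.mul_mem_mul hp'' (hXX hx'' hx')
  have hmul : ∀ a b, a ∈ P * X → b ∈ P * X → a * b ∈ P * X := by
    intro a b ha hb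
    refine Submodule.mul_induction_on ha (fun p hp q hq => ?_)
      (fun u v hu hv => by rw [add_mul]; exact add_mem hu hv)
    refine Submodule.mul_induction_on hb (fun p' hp' q' hq' => ?_)
      (fun u v hu hv => by rw [mul_add]; exact add_mem hu hv)
    rw [show p * q * (p' * q') = p * (q * p') * q' by simp only [mul_assoc]]
    refine Submodule.mul_induction_on (hPX p' hp' q hq) (fun p'' hp'' q'' hq'' => ?_)
      (fun u v hu hv => by rw [mul_add, add_mul]; exact add_mem hu hv)
    rw [show p * (p'' * q'') * q' = p * p'' * (q'' * q') by simp only [mul_assoc]]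
    exact Submodule.mul_mem_mul (mul_mem (S := Subalgebra Z D) (s := φ.range) hp hp'')
      (hXX hq'' hq')
  have hone : (1 : D) ∈ P * X := by
    rw [← mul_one (1 : D)]
    exact Submodule.mul_mem_mul (one_mem φ.range) (one_mem (Algebra.adjoin Z {x}))
  let T := (P * X).toSubalgebra hone hmul
  have hfg : (P * X).FG := Submodule.FG.mul
    (by
      rw [show P = LinearMap.range φ.toLinearMap from rfl, LinearMap.range_eq_map]
      exact Submodule.FG.map _ Module.Finite.fg_top)
    (IsIntegral.fg_adjoin_singleton (Algebra.IsIntegral.isIntegral x))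
  have : FiniteDimensional Z T := Module.Finite.iff_fg.2 hfg
  apply AlgEquiv.ext
  intro l
  apply φ.toRingHom.injective
  show φ (σ l) = φ l
  have hxT : x ∈ T := by
    show x ∈ P * X
    rw [← one_mul x]
    exact Submodule.mul_mem_mul (one_mem φ.range) (Algebra.self_mem_adjoin_singleton Z x)
  have hlT : φ l ∈ T := by
    show φ l ∈ P * X
    rw [← mul_one (φ l)]
    exact Submodule.mul_mem_mul ⟨l, rfl⟩ (one_mem (Algebra.adjoin Z {x}))
  have := (comm_of_finite_subalgebra hZ T hxT hlT).trans (hx l)
  exact (mul_left_cancel₀ hx0 this).symm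

theorem finrank_dvd_size [Uncountable Z] (hZ : CommDiv Z) {M : Type u} [Field M] [Algebra Z M]
    [FiniteDimensional Z M] [IsGalois Z M] {n : ℕ} (ψ : M →ₐ[Z] Matrix (Fin n) (Fin n) D) :
    Module.finrank Z M ∣ n := by
  suffices H : ∀ d : ℕ, ∀ (Z D M : Type u) [Field Z] [DivisionRing D] [Algebra Z D]
      [Algebra.IsAlgebraic Z D] [Algebra.IsCentral Z D] [Uncountable Z] [Field M] [Algebra Z M]
      [FiniteDimensional Z M] [IsGalois Z M], Module.finrank Z M = d → CommDiv Z →
      ∀ (n : ℕ), (M →ₐ[Z] Matrix (Fin n) (Fin n) D) → d ∣ n from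
    H _ Z D M rfl hZ n ψ
  clear! Z D M n
  intro d
  induction d using Nat.strong_induction_on with
  | _ d ih =>
    intro Z D M _ _ _ _ _ _ _ _ _ _ hd hZ n ψ
    rw [Nat.dvd_iff_prime_pow_dvd_dvd]
    intro p k hp hpk
    rcases Nat.eq_zero_or_pos k with rfl | hk
    · simp
    have := Fact.mk hp
    have hG : Nat.card (M ≃ₐ[Z] M) = d := by rw [IsGalois.card_aut_eq_finrank, hd]
    have hdpos : 0 < d := hd ▸ Module.finrank_pos
    have key : ∀ H : Subgroup (M ≃ₐ[Z] M), Nat.card H < d →
        ∃ δ m : ℕ, n = m * δ ∧ Nat.card H ∣ m ∧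
          Nonempty (IntermediateField.fixedField H →ₐ[Z] Matrix (Fin δ) (Fin δ) D) := by
      intro H hH
      let L := IntermediateField.fixedField H
      have : Uncountable L := (FaithfulSMul.algebraMap_injective Z L).uncountable
      obtain ⟨D', _, _, δ, r, hc, ha, -, ⟨ρ⟩, -, hdec⟩ :=
        exists_step (Z := Z) (L := L) (D := D)
      obtain ⟨m, hm, hext⟩ := hdec n (ψ.comp (IsScalarTower.toAlgHom Z L M))
      obtain ⟨χ⟩ := hext M ψ fun l => rfl
      refine ⟨δ, m, hm, ?_, ⟨ρ⟩⟩
      have := ih (Nat.card H) hH L D' M (IntermediateField.finrank_fixedField_eq_card H)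
        hZ.of_finite m χ
      exact this
    rcases lt_or_eq_of_le (Nat.le_of_dvd hdpos hpk) with hlt | heq
    · obtain ⟨H, hH⟩ := Sylow.exists_subgroup_card_pow_prime p (G := M ≃ₐ[Z] M)
        (by rw [hG]; exact hpk)
      obtain ⟨δ, m, hm, hdvd, -⟩ := key H (hH ▸ hlt)
      rw [hH] at hdvd
      exact hm ▸ hdvd.mul_right δ
    · obtain rfl | hk2 : k = 1 ∨ 2 ≤ k := by omega
      · obtain ⟨D', _, _, δ, r, -, -, hδ, ⟨ρ⟩, -, hdec⟩ := exists_step (Z := Z) (L := M) (D := D)
        obtain ⟨m, hm, -⟩ := hdec n ψ
        rw [hd, ← heq, pow_one] at hδ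
        rcases (Nat.dvd_prime hp).1 hδ with rfl | rfl
        · let φ : M →ₐ[Z] D :=
            { toFun := fun l => ρ l 0 0
              map_one' := by simp
              map_mul' := fun a b => by simp [Matrix.mul_apply]
              map_zero' := by simp
              map_add' := fun a b => by simp
              commutes' := fun z => by simp [Matrix.algebraMap_matrix_apply] }
          have h1 := finrank_eq_one_of_embedding hZ φ
          rw [hd, ← heq, pow_one] at h1
          exact absurd h1 hp.ne_one
        · rw [pow_one, hm]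
          exact dvd_mul_left _ _
      · have hdvd : p ^ (k - 1) ∣ Nat.card (M ≃ₐ[Z] M) := by
          rw [hG, ← heq]
          exact pow_dvd_pow p (by omega)
        obtain ⟨H, hH⟩ := Sylow.exists_subgroup_card_pow_prime p hdvd
        have hlt : p ^ (k - 1) < d := heq ▸ Nat.pow_lt_pow_right hp.one_lt (by omega)
        obtain ⟨δ, m, hm, hm', ⟨ρ⟩⟩ := key H (hH ▸ hlt)
        rw [hH] at hm'
        have hidx : H.index = p := by
          have := H.card_mul_index
          rw [hH, hG, ← heq] at this
          have h2 : p ^ k = p ^ (k - 1) * p := by rw [← pow_succ]; congr 1; omega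
          rw [h2] at this
          exact Nat.eq_of_mul_eq_mul_left (pow_pos hp.pos _) this
        have : H.Normal := Subgroup.normal_of_index_eq_minFac_card (by
          rw [hidx, hG, ← heq, Nat.Prime.pow_minFac hp (by omega)])
        have hL : Module.finrank Z (IntermediateField.fixedField H) = p := by
          have h3 := Module.finrank_mul_finrank Z (IntermediateField.fixedField H) M
          rw [IntermediateField.finrank_fixedField_eq_card, hH, hd, ← heq] at h3
          have h2 : p ^ k = p * p ^ (k - 1) := by rw [← pow_succ']; congr 1; omega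
          rw [h2] at h3
          exact Nat.eq_of_mul_eq_mul_right (pow_pos hp.pos _) h3
        have hp_lt : p < d := by
          rw [← heq]
          calc p = p ^ 1 := (pow_one p).symm
            _ < p ^ k := Nat.pow_lt_pow_right hp.one_lt (by omega)
        have hδ := ih p hp_lt Z D (IntermediateField.fixedField H) hL hZ δ ρ
        rw [show p ^ k = p ^ (k - 1) * p by rw [← pow_succ]; congr 1; omega, hm]
        exact mul_dvd_mul hm' hδ

end Vale.Agent.P199
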