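import Vale.Agent.P199.Descent
import Mathlib.FieldTheory.JacobsonNoether
import Mathlib.FieldTheory.SplittingField.Construction
import Mathlib.RingTheory.AdjoinRoot
import Mathlib.RingTheory.Ideal.Quotient.Operations
import Mathlib.FieldTheory.IntermediateField.Adjoin.Basic
import Mathlib.LinearAlgebra.Dimension.Finite

/-!
Division algebras algebraic over an uncountable field which virtually has no noncommutative
finite-dimensional division algebras.
-/

open scoped TensorProduct

universe u

namespace Vale.Agent.P199

attribute [local instance] rightModule towerD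

theorem comm_of_central {Z D : Type u} [Field Z] [DivisionRing D] [Algebra Z D]
    [Algebra.IsAlgebraic Z D] [Algebra.IsCentral Z D] [Uncountable Z] (hZ : CommDiv Z)
    (x y : D) : x * y = y * x := by
  by_contra hxy
  have hne : (⊥ : Subalgebra Z D) ≠ ⊤ := fun h => hxy (by
    have hx : x ∈ (⊥ : Subalgebra Z D) := h ▸ Algebra.mem_top
    obtain ⟨z, rfl⟩ := Algebra.mem_bot.1 hx
    exact Algebra.commutes z y)
  obtain ⟨a, ha, hsep⟩ := JacobsonNoether.exists_separable_and_not_isCentral' hne
  have hint : IsIntegral Z a := Algebra.IsIntegral.isIntegral a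
  let f := minpoly Z a
  have := Fact.mk (minpoly.irreducible hint)
  have hf0 : f ≠ 0 := minpoly.ne_zero hint
  let K := AdjoinRoot f
  let M := f.SplittingField
  have : IsGalois Z M := IsGalois.of_separable_splitting_field hsep
  have : FiniteDimensional Z K := (AdjoinRoot.powerBasis hf0).finite
  obtain ⟨θ, hθ⟩ := (Polynomial.SplittingField.splits f).exists_eval_eq_zero (by
    rw [Polynomial.degree_map]
    exact (minpoly.degree_pos hint).ne')
  let ι : K →ₐ[Z] M := AdjoinRoot.liftAlgHom f (Algebra.ofId Z M) θ (by
    rw [← Polynomial.eval_map]; exact hθ)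
  let _ : Algebra K M := ι.toRingHom.toAlgebra
  have : IsScalarTower Z K M := IsScalarTower.of_algebraMap_eq fun z => (ι.commutes z).symm
  have : FiniteDimensional K M := Module.Finite.of_restrictScalars_finite Z K M
  let φ : K →ₐ[Z] D := Ideal.Quotient.liftₐ (Ideal.span {f}) (Polynomial.aeval a) (by
    intro g hg
    obtain ⟨q, rfl⟩ := Ideal.mem_span_singleton'.1 hg
    rw [map_mul, minpoly.aeval, mul_zero])
  let b := Module.finBasis K M
  let ψ : M →ₐ[Z] Matrix (Fin (Module.finrank K M)) (Fin (Module.finrank K M)) D :=
    φ.mapMatrix.comp ((Algebra.leftMulMatrix b).restrictScalars Z)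
  have hdvd := finrank_dvd_size hZ ψ
  have hmul := Module.finrank_mul_finrank Z K M
  have hK : Module.finrank Z K = 1 := by
    have hle := Nat.le_of_dvd Module.finrank_pos hdvd
    rw [← hmul] at hle
    have h1 : 0 < Module.finrank Z K := Module.finrank_pos
    have h2 : 0 < Module.finrank K M := Module.finrank_pos
    nlinarith
  apply ha
  rw [(AdjoinRoot.powerBasis hf0).finrank, AdjoinRoot.powerBasis_dim] at hK
  obtain ⟨z, hz⟩ := minpoly.natDegree_eq_one_iff.1 hK
  exact Algebra.mem_bot.2 ⟨z, hz⟩

/-- Finite subsets of an algebra finite over an algebraic extension generate finite algebras. -/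
theorem finite_adjoin {F Z B : Type*} [Field F] [Field Z] [Algebra F Z] [Algebra.IsAlgebraic F Z]
    [Ring B] [Algebra F B] [Algebra Z B] [IsScalarTower F Z B] [FiniteDimensional Z B]
    {s : Set B} (hs : s.Finite) : Module.Finite F (Algebra.adjoin F s) := by
  classical
  let b := Module.finBasis Z B
  let c : Set Z := (Set.range fun t : _ × _ × _ => b.repr (b t.1 * b t.2.1) t.2.2) ∪
    (⋃ x ∈ insert (1 : B) s, Set.range fun i => b.repr x i)
  have hc : c.Finite := (Set.finite_range _).union
    ((hs.insert 1).biUnion fun x _ => Set.finite_range _)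
  let F' := IntermediateField.adjoin F c
  have : Finite c := hc.to_subtype
  have : FiniteDimensional F F' := IntermediateField.finiteDimensional_adjoin
    fun x _ => Algebra.IsIntegral.isIntegral x
  have hmem : ∀ x ∈ insert (1 : B) s, ∀ i, b.repr x i ∈ F' := fun x hx i =>
    IntermediateField.subset_adjoin F c (Or.inr (Set.mem_biUnion hx ⟨i, rfl⟩))
  let T : Subalgebra F B :=
    { carrier := {x | ∀ i, b.repr x i ∈ F'}
      one_mem' := hmem 1 (Set.mem_insert _ _)
      zero_mem' := fun i => by simp
      add_mem' := fun {x y} hx hy i => by simpa using add_mem (hx i) (hy i)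
      mul_mem' := fun {x y} hx hy k => by
        rw [show x * y = (∑ i, b.repr x i • b i) * (∑ j, b.repr y j • b j) by
          rw [b.sum_repr, b.sum_repr]]
        rw [Finset.sum_mul_sum, map_sum, Finsupp.finsetSum_apply]
        refine sum_mem fun i _ => ?_
        rw [map_sum, Finsupp.finsetSum_apply]
        refine sum_mem fun j _ => ?_
        rw [smul_mul_smul_comm, map_smul, Finsupp.smul_apply, smul_eq_mul]
        exact mul_mem (mul_mem (hx i) (hy j))
          (IntermediateField.subset_adjoin F c (Or.inl ⟨(i, j, k), rfl⟩))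
      algebraMap_mem' := fun r i => by
        rw [Algebra.algebraMap_eq_smul_one, ← algebraMap_smul Z r (1 : B), map_smul,
          Finsupp.smul_apply, smul_eq_mul]
        exact mul_mem (F'.algebraMap_mem r) (hmem 1 (Set.mem_insert _ _) i) }
  let g : T →ₗ[F] Fin (Module.finrank Z B) → F' :=
    { toFun := fun x i => ⟨b.repr x.1 i, x.2 i⟩
      map_add' := fun x y => by ext i; simp
      map_smul' := fun r x => by
        ext i
        show b.repr (r • x.1) i = r • b.repr x.1 i
        rw [← algebraMap_smul Z r x.1, map_smul, Finsupp.smul_apply, algebraMap_smul] }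
  have : Module.Finite F T := Module.Finite.of_injective g fun x y h => Subtype.ext <|
    b.repr.injective <| Finsupp.ext fun i => congrArg Subtype.val (congrFun h i)
  have hle : Algebra.adjoin F s ≤ T :=
    Algebra.adjoin_le fun x hx => hmem x (Set.mem_insert_of_mem _ hx)
  exact Module.Finite.of_injective (Subalgebra.inclusion hle).toLinearMap
    (Subalgebra.inclusion_injective hle)

lemma CommDiv.of_algebraic {E E' : Type u} [Field E] [Field E'] [Algebra E E']
    [Algebra.IsAlgebraic E E'] (h : CommDiv E) : CommDiv E' := by
  intro B _ _ _ x y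
  let _ : Algebra E B := Algebra.compHom B (algebraMap E E')
  have : IsScalarTower E E' B := IsScalarTower.of_algebraMap_eq fun _ => rfl
  have := finite_adjoin (F := E) (Z := E') (B := B) (s := {x, y}) (Set.toFinite _)
  exact comm_of_finite_subalgebra h (Algebra.adjoin E {x, y})
    (Algebra.subset_adjoin (Set.mem_insert x _))
    (Algebra.subset_adjoin (Set.mem_insert_of_mem _ rfl))

/-- A central version with a finite extension of the centre. -/
theorem finite_of_commDiv {Z D L : Type u} [Field Z] [DivisionRing D] [Algebra Z D]
    [Algebra.IsAlgebraic Z D] [Algebra.IsCentral Z D] [Uncountable Z] [Field L] [Algebra Z L]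
    [FiniteDimensional Z L] (hL : CommDiv L) :
    FiniteDimensional Z D ∧ Module.finrank Z D ≤ Module.finrank Z L ^ 2 := by
  classical
  have : Uncountable L := (FaithfulSMul.algebraMap_injective Z L).uncountable
  obtain ⟨D', _, _, δ, r, hc, ha, -, -, ⟨e⟩, -⟩ := exists_step (Z := Z) (L := L) (D := D)
  have hsurj : Function.Surjective (algebraMap L D') := fun x => by
    obtain ⟨l, hl⟩ := (Algebra.IsCentral.mem_center_iff L).1
      (Subalgebra.mem_center_iff.2 fun y => comm_of_central hL y x)
    exact ⟨l, hl.symm⟩
  have : Module.Finite L D' := Module.Finite.of_surjective (Algebra.linearMap L D') hsurj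
  have hD' : Module.finrank L D' = 1 := by
    rw [← (AlgEquiv.ofBijective (Algebra.ofId L D')
      ⟨(algebraMap L D').injective, hsurj⟩).toLinearEquiv.finrank_eq, Module.finrank_self]
  have : Module.Finite L (L ⊗[Z] D) := Module.Finite.equiv e.symm.toLinearEquiv
  have hR : Module.finrank L (L ⊗[Z] D) = r ^ 2 := by
    rw [e.toLinearEquiv.finrank_eq, Module.finrank_matrix, hD']
    simp [sq]
  let bD := Module.Free.chooseBasis Z D
  have : Finite (Module.Free.ChooseBasisIndex Z D) :=
    Module.Finite.finite_basis (Algebra.TensorProduct.basis L bD)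
  have hfin : FiniteDimensional Z D := Module.Finite.of_basis bD
  refine ⟨hfin, ?_⟩
  rw [← Module.finrank_baseChange (R := L) (S := Z) (M' := D), hR]
  refine Nat.pow_le_pow_left ?_ 2
  have := finiteD (Z := Z) (L := L) (D := D)
  let v : Fin r → L ⊗[Z] D := fun i => e.symm (Matrix.single i i 1)
  have hv : ∀ i j, v i * v j = if i = j then v j else 0 := fun i j => by
    rw [← map_mul]
    rcases eq_or_ne i j with rfl | h
    · simp [v]
    · simp [Matrix.single_mul_single_of_ne, h]
  have hli : LinearIndependent D v := by
    rw [Fintype.linearIndependent_iff]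
    intro c hsum j
    have := congrArg (· * v j) hsum
    simp only [Finset.sum_mul, smul_mul_assoc, hv, zero_mul, smul_ite, smul_zero,
      Finset.sum_ite_eq', Finset.mem_univ, if_true] at this
    refine (smul_eq_zero.1 this).resolve_right fun h => ?_
    have h2 := congrFun (congrFun (congrArg e h) j) j
    simp [v] at h2
  calc r = Fintype.card (Fin r) := (Fintype.card_fin r).symm
    _ ≤ Module.finrank D (L ⊗[Z] D) := hli.fintype_card_le_finrank
    _ = Module.finrank Z L := finrankD

theorem virtual_kurosh {k E D : Type u} [Field k] [Field E] [Algebra k E] [FiniteDimensional k E]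
    [Uncountable k] [DivisionRing D] [Algebra k D] [Algebra.IsAlgebraic k D] (hE : CommDiv E) :
    FiniteDimensional (Subring.center D) D ∧
      Module.finrank (Subring.center D) D ≤ Module.finrank k E ^ 2 ∧
      ∀ s : Finset D, FiniteDimensional k (Algebra.adjoin k (s : Set D)) := by
  let j : k →+* Subring.center D := (algebraMap k D).codRestrict (Subring.center D) fun a =>
    Subring.mem_center_iff.2 fun d => (Algebra.commutes a d).symm
  let _ : Algebra k (Subring.center D) := j.toAlgebra
  have : IsScalarTower k (Subring.center D) D := IsScalarTower.of_algebraMap_eq fun _ => rfl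
  have : Algebra.IsAlgebraic (Subring.center D) D := Algebra.IsAlgebraic.tower_top (K := k) _
  have : Algebra.IsAlgebraic k (Subring.center D) :=
    Algebra.IsAlgebraic.tower_bot k (Subring.center D) D
  have : Algebra.IsCentral (Subring.center D) D :=
    ⟨fun x hx => Algebra.mem_bot.2
      ⟨⟨x, Subring.mem_center_iff.2 (Subalgebra.mem_center_iff.1 hx)⟩, rfl⟩⟩
  have : Uncountable (Subring.center D) := j.injective.uncountable
  let A := Subring.center D ⊗[k] E
  have : NeZero (Module.finrank k E) := ⟨Module.finrank_pos.ne'⟩
  have : Nontrivial A := (Algebra.TensorProduct.basis (Subring.center D)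
    (Module.finBasis k E)).repr.toEquiv.nontrivial
  obtain ⟨m, hm⟩ := Ideal.exists_maximal A
  let _ : Field (A ⧸ m) := Ideal.Quotient.field m
  let g : E →ₐ[k] A ⧸ m := (Ideal.Quotient.mkₐ k m).comp Algebra.TensorProduct.includeRight
  let _ : Algebra E (A ⧸ m) := g.toRingHom.toAlgebra
  have : IsScalarTower k E (A ⧸ m) := IsScalarTower.of_algebraMap_eq fun a => (g.commutes a).symm
  have : Algebra.IsAlgebraic E (A ⧸ m) := by
    refine ⟨fun q => IsIntegral.isAlgebraic ?_⟩
    obtain ⟨x, rfl⟩ := Ideal.Quotient.mk_surjective q
    induction x using TensorProduct.induction_on with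
    | zero => rw [map_zero]; exact isIntegral_zero
    | add x y hx hy => rw [map_add]; exact hx.add hy
    | tmul z e =>
      rw [show z ⊗ₜ[k] e = (z ⊗ₜ[k] (1 : E)) * (1 ⊗ₜ[k] e) by
        rw [Algebra.TensorProduct.tmul_mul_tmul, one_mul, mul_one], map_mul]
      refine IsIntegral.mul ?_ (isIntegral_algebraMap (R := E) (A := A ⧸ m) (x := e))
      exact IsIntegral.tower_top (R := k) ((Algebra.IsIntegral.isIntegral (R := k) z).map
        ((Ideal.Quotient.mkₐ k m).comp
          ((Algebra.TensorProduct.includeLeft : Subring.center D →ₐ[k] A))))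
  have hd : Module.finrank (Subring.center D) A = Module.finrank k E := Module.finrank_baseChange
  have : FiniteDimensional (Subring.center D) (A ⧸ m) := Module.Finite.of_surjective
    (Ideal.Quotient.mkₐ (Subring.center D) m).toLinearMap Ideal.Quotient.mk_surjective
  have hle : Module.finrank (Subring.center D) (A ⧸ m) ≤ Module.finrank k E :=
    hd ▸ LinearMap.finrank_le_finrank_of_surjective
      (f := (Ideal.Quotient.mkₐ (Subring.center D) m).toLinearMap) Ideal.Quotient.mk_surjective
  obtain ⟨hfin, hbd⟩ := finite_of_commDiv (Z := Subring.center D) (D := D)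
    (hE.of_algebraic (E' := A ⧸ m))
  exact ⟨hfin, hbd.trans (Nat.pow_le_pow_left hle 2),
    fun s => finite_adjoin (F := k) (Z := Subring.center D) s.finite_toSet⟩

theorem comm_of_commDiv {k D : Type u} [Field k] [Uncountable k] [DivisionRing D] [Algebra k D]
    [Algebra.IsAlgebraic k D] (hk : CommDiv k) (x y : D) : x * y = y * x := by
  obtain ⟨hfin, hle, -⟩ := virtual_kurosh (k := k) (E := k) (D := D) hk
  rw [Module.finrank_self, one_pow] at hle
  have h1 : Module.finrank (Subring.center D) D = 1 := le_antisymm hle Module.finrank_pos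
  obtain ⟨z, hz⟩ := (finrank_eq_one_iff_of_nonzero' (1 : D) one_ne_zero).1 h1 x
  rw [← hz, Subring.smul_def, smul_eq_mul, mul_one]
  exact (Subring.mem_center_iff.1 z.2 y).symm

end Vale.Agent.P199
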