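import Mathlib.RingTheory.TensorProduct.Maps
import Mathlib.LinearAlgebra.TensorProduct.Basis
import Mathlib.RingTheory.SimpleRing.Basic
import Mathlib.RingTheory.SimpleModule.WedderburnArtin
import Mathlib.Algebra.Central.Basic
import Mathlib.LinearAlgebra.Dimension.Constructions
import Mathlib.RingTheory.Artinian.Module
import Mathlib.LinearAlgebra.FiniteDimensional.Basic
import Mathlib.LinearAlgebra.Dimension.Free

/-!
`L ⊗[Z] D` for a central division algebra `D` and a finite field extension `L`.
-/

open scoped TensorProduct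

universe u

namespace Vale.Agent.P199

variable {Z L D : Type u} [Field Z] [Field L] [Algebra Z L] [DivisionRing D] [Algebra Z D]

/-- left action of `D` on `L ⊗[Z] D` through the second factor -/
noncomputable abbrev rightModule : Module D (L ⊗[Z] D) :=
  Module.compHom _ (Algebra.TensorProduct.includeRight : D →ₐ[Z] L ⊗[Z] D).toRingHom

attribute [local instance] rightModule

lemma dsmul_def (d : D) (x : L ⊗[Z] D) : d • x = (1 ⊗ₜ[Z] d) * x := rfl

lemma towerD : IsScalarTower D (L ⊗[Z] D) (L ⊗[Z] D) :=
  ⟨fun d x y => by simp [dsmul_def, mul_assoc]⟩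

variable [FiniteDimensional Z L]

/-- coordinates with respect to a basis of `L` -/
noncomputable def coords : (L ⊗[Z] D) ≃ₗ[Z] (Fin (Module.finrank Z L) →₀ D) :=
  TensorProduct.equivFinsuppOfBasisLeft (Module.finBasis Z L)

lemma coords_mul_left (e : D) (x : L ⊗[Z] D) (i) :
    coords ((1 ⊗ₜ[Z] e) * x) i = e * coords x i := by
  induction x using TensorProduct.induction_on with
  | zero => simp
  | tmul l d => simp [coords]
  | add x y hx hy => simp [mul_add, hx, hy]

lemma coords_mul_right (e : D) (x : L ⊗[Z] D) (i) :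
    coords (x * (1 ⊗ₜ[Z] e)) i = coords x i * e := by
  induction x using TensorProduct.induction_on with
  | zero => simp
  | tmul l d => simp [coords]
  | add x y hx hy => simp [add_mul, hx, hy]

/-- coordinates as a `D`-linear equivalence -/
noncomputable def coordsD : (L ⊗[Z] D) ≃ₗ[D] (Fin (Module.finrank Z L) → D) where
  toFun x i := coords x i
  map_add' x y := by ext i; simp
  map_smul' d x := by ext i; simp [dsmul_def, coords_mul_left]
  invFun f := coords.symm (Finsupp.equivFunOnFinite.symm f)
  left_inv x := by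
    apply coords.injective
    ext i; simp
  right_inv f := by ext i; simp

lemma finiteD : Module.Finite D (L ⊗[Z] D) := Module.Finite.equiv coordsD.symm

lemma finrankD : Module.finrank D (L ⊗[Z] D) = Module.finrank Z L := by
  rw [coordsD.finrank_eq]; simp

lemma artinian : IsArtinianRing (L ⊗[Z] D) :=
  have := finiteD (Z := Z) (L := L) (D := D)
  have := towerD (Z := Z) (L := L) (D := D)
  isArtinian_of_tower D (inferInstance : IsArtinian D (L ⊗[Z] D))

variable [Algebra.IsCentral Z D]

lemma exists_eq_tmul_one {x : L ⊗[Z] D} (h : ∀ i, ∀ e : D, e * coords x i = coords x i * e) :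
    ∃ l : L, x = l ⊗ₜ[Z] (1 : D) := by
  have hz : ∀ i, ∃ z : Z, coords x i = algebraMap Z D z := fun i =>
    (Algebra.IsCentral.mem_center_iff Z).1 (Subalgebra.mem_center_iff.2 (h i))
  choose z hz using hz
  refine ⟨∑ i, z i • Module.finBasis Z L i, ?_⟩
  apply coords.injective
  ext i
  classical
  rw [hz]
  simp [coords, TensorProduct.sum_tmul, Finsupp.single_apply, Algebra.algebraMap_eq_smul_one]

omit [Algebra.IsCentral Z D] in
lemma nontrivial_tensor : Nontrivial (L ⊗[Z] D) :=
  have : NeZero (Module.finrank Z L) := ⟨Module.finrank_pos.ne'⟩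
  (coordsD (Z := Z) (L := L) (D := D)).toEquiv.nontrivial

lemma isSimple : IsSimpleRing (L ⊗[Z] D) := by
  have := nontrivial_tensor (Z := Z) (L := L) (D := D)
  refine IsSimpleRing.of_eq_bot_or_eq_top fun I => ?_
  by_cases hI : I = ⊥
  · exact Or.inl hI
  right
  classical
  have hex : ∃ k, ∃ x ∈ I, x ≠ 0 ∧ (coords x).support.card = k := by
    obtain ⟨x, hx, hx0⟩ : ∃ x ∈ I, x ≠ 0 := by
      by_contra! h
      apply hI
      ext x
      rw [TwoSidedIdeal.mem_bot]
      exact ⟨h x, fun hx => hx ▸ I.zero_mem⟩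
    exact ⟨_, x, hx, hx0, rfl⟩
  obtain ⟨x, hxI, hx0, hxk⟩ := Nat.find_spec hex
  obtain ⟨j, hj⟩ : ∃ j, coords x j ≠ 0 := by
    by_contra! h
    exact hx0 (coords.injective (by ext i; simp [h]))
  let y := (1 ⊗ₜ[Z] (coords x j)⁻¹) * x
  have hy : ∀ i, coords y i = (coords x j)⁻¹ * coords x i := coords_mul_left _ x
  have hyI : y ∈ I := I.mul_mem_left _ _ hxI
  have hyj : coords y j = 1 := by rw [hy, inv_mul_cancel₀ hj]
  have hcomm : ∀ i, ∀ e : D, e * coords y i = coords y i * e := by
    intro i e
    let w := (1 ⊗ₜ[Z] e) * y - y * (1 ⊗ₜ[Z] e)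
    have hwI : w ∈ I := I.sub_mem (I.mul_mem_left _ _ hyI) (I.mul_mem_right _ _ hyI)
    have hw : ∀ i, coords w i = e * coords y i - coords y i * e := fun i => by
      simp [w, coords_mul_left, coords_mul_right]
    suffices hz0 : w = 0 by
      have h := hw i
      rw [hz0, map_zero, Finsupp.zero_apply] at h
      exact sub_eq_zero.1 h.symm
    by_contra hw0
    have hlt : (coords w).support.card < (coords x).support.card := by
      apply Finset.card_lt_card
      rw [Finset.ssubset_iff_of_subset]
      · exact ⟨j, Finsupp.mem_support_iff.2 hj, by simp [hw, hyj]⟩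
      · intro k hk
        rw [Finsupp.mem_support_iff] at hk ⊢
        intro h0
        apply hk
        simp [hw, hy, h0]
    exact absurd (Nat.find_le ⟨w, hwI, hw0, rfl⟩ : Nat.find hex ≤ _) (by omega)
  obtain ⟨l, hl⟩ := exists_eq_tmul_one hcomm
  have hl0 : l ≠ 0 := by
    rintro rfl
    simp [hl] at hyj
  rw [← TwoSidedIdeal.one_mem_iff]
  have := I.mul_mem_left (l⁻¹ ⊗ₜ[Z] (1 : D)) y hyI
  rwa [hl, Algebra.TensorProduct.tmul_mul_tmul, inv_mul_cancel₀ hl0, one_mul,
    ← Algebra.TensorProduct.one_def] at this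

lemma isCentral : Algebra.IsCentral L (L ⊗[Z] D) where
  out x hx := by
    rw [Subalgebra.mem_center_iff] at hx
    obtain ⟨l, hl⟩ := exists_eq_tmul_one (x := x) fun i e => by
      rw [← coords_mul_left, ← coords_mul_right, hx]
    rw [hl, Algebra.mem_bot]
    exact ⟨l, rfl⟩

end Vale.Agent.P199
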