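import Vale.Agent.P199.Algebraicity
import Vale.Agent.P199.Simple
import Mathlib.Algebra.Algebra.Opposite
import Mathlib.Algebra.Central.Matrix
import Mathlib.LinearAlgebra.Matrix.ToLin

/-!
One step of the descent: restricting matrix representations to a subfield.
-/

open scoped TensorProduct

universe u

namespace Vale.Agent.P199

variable {Z L D : Type u} [Field Z] [Field L] [Algebra Z L] [DivisionRing D] [Algebra Z D]
variable [FiniteDimensional Z L]

attribute [local instance] rightModule towerD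

/-- row vectors on which `L` acts through a matrix representation and `D` by left scalars -/
def Row {n : ℕ} (_ψ : L →ₐ[Z] Matrix (Fin n) (Fin n) D) : Type u := Fin n → D

variable {n : ℕ} (ψ : L →ₐ[Z] Matrix (Fin n) (Fin n) D)

noncomputable instance : AddCommGroup (Row ψ) := inferInstanceAs (AddCommGroup (Fin n → D))
noncomputable instance : Module D (Row ψ) := inferInstanceAs (Module D (Fin n → D))
noncomputable instance : Module.Finite D (Row ψ) := inferInstanceAs (Module.Finite D (Fin n → D))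

/-- `L` acting on rows -/
noncomputable def rowActL : L →ₐ[Z] Module.End Z (Fin n → D) :=
  AlgHom.ofLinearMap
    { toFun := fun l =>
        { toFun := fun v => Matrix.vecMul v (ψ l)
          map_add' := fun v w => Matrix.add_vecMul _ v w
          map_smul' := fun z v => Matrix.smul_vecMul z v _ }
      map_add' := fun a b => LinearMap.ext fun v => by simp [Matrix.vecMul_add]
      map_smul' := fun z a => LinearMap.ext fun v => by simp [Matrix.vecMul_smul] }
    (LinearMap.ext fun v => by simp)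
    (fun a b => LinearMap.ext fun v => by
      simp [Matrix.vecMul_vecMul, mul_comm a b, map_mul])

/-- `D` acting on rows -/
noncomputable def rowActD : D →ₐ[Z] Module.End Z (Fin n → D) := Algebra.lsmul Z Z (Fin n → D)

omit [FiniteDimensional Z L] in
lemma rowAct_comm (l : L) (d : D) : Commute (rowActL ψ l) (rowActD d) :=
  LinearMap.ext fun v => Matrix.smul_vecMul d (v : Fin n → D) (ψ l)

/-- `L ⊗ D` acting on rows -/
noncomputable def rowAct : (L ⊗[Z] D) →ₐ[Z] Module.End Z (Fin n → D) :=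
  Algebra.TensorProduct.lift (rowActL ψ) rowActD (rowAct_comm ψ)

noncomputable instance rowModule : Module (L ⊗[Z] D) (Row ψ) :=
  Module.compHom (Fin n → D) (rowAct ψ).toRingHom

omit [FiniteDimensional Z L] in
lemma row_smul_tmul (l : L) (d : D) (v : Row ψ) :
    (l ⊗ₜ[Z] d) • v = (Matrix.vecMul (d • v : Fin n → D) (ψ l) : Fin n → D) := by
  show rowAct ψ (l ⊗ₜ[Z] d) v = _
  rw [rowAct, Algebra.TensorProduct.lift_tmul]
  exact congrFun (congrArg DFunLike.coe (rowAct_comm ψ l d)) v |>.trans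
    (Matrix.smul_vecMul d (v : Fin n → D) (ψ l)).symm |>.trans rfl

omit [FiniteDimensional Z L] in
lemma row_tmul_one (l : L) (v : Row ψ) :
    (l ⊗ₜ[Z] (1 : D)) • v = (Matrix.vecMul (v : Fin n → D) (ψ l) : Fin n → D) := by
  rw [row_smul_tmul, one_smul]

omit [FiniteDimensional Z L] in
lemma row_one_tmul (d : D) (v : Row ψ) : ((1 : L) ⊗ₜ[Z] d) • v = d • v := by
  rw [row_smul_tmul, map_one]
  exact Matrix.vecMul_one _

instance : IsScalarTower D (L ⊗[Z] D) (Row ψ) :=
  ⟨fun d x v => by rw [dsmul_def, mul_smul, row_one_tmul]⟩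

noncomputable instance : Module L (Row ψ) :=
  Module.compHom (Row ψ) (algebraMap L (L ⊗[Z] D))

instance : IsScalarTower L (L ⊗[Z] D) (Row ψ) :=
  ⟨fun l x v => by rw [Algebra.smul_def, mul_smul]; rfl⟩

variable [Algebra.IsCentral Z D]

omit ψ in
lemma isotypicOfType (I : Ideal (L ⊗[Z] D)) [IsSimpleModule (L ⊗[Z] D) I] (V : Type u)
    [AddCommGroup V] [Module (L ⊗[Z] D) V] : IsIsotypicOfType (L ⊗[Z] D) V I := by
  have := isSimple (Z := Z) (L := L) (D := D)
  have := artinian (Z := Z) (L := L) (D := D)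
  intro w _
  obtain ⟨J, ⟨e⟩⟩ := IsSemisimpleRing.exists_linearEquiv_ideal_of_isSimpleModule (L ⊗[Z] D) w
  have := IsSimpleModule.congr e.symm
  exact ⟨e.trans (IsSimpleRing.isIsotypic (L ⊗[Z] D) (L ⊗[Z] D) I J).some⟩

omit ψ [Algebra.IsCentral Z D] in
lemma finrank_fun_ideal (I : Ideal (L ⊗[Z] D)) (m : ℕ) :
    Module.finrank D (Fin m → I) = m * Module.finrank D I := by
  have := finiteD (Z := Z) (L := L) (D := D)
  have : IsScalarTower D (L ⊗[Z] D) (L ⊗[Z] D) := towerD
  have : Module.Finite D I :=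
    Module.Finite.of_injective (I.subtype.restrictScalars D) Subtype.val_injective
  rw [Module.finrank_pi_fintype]
  simp

lemma row_decompose (I : Ideal (L ⊗[Z] D)) [IsSimpleModule (L ⊗[Z] D) I] :
    ∃ m, Nonempty (Row ψ ≃ₗ[L ⊗[Z] D] (Fin m → I)) ∧ n = m * Module.finrank D I := by
  have := isSimple (Z := Z) (L := L) (D := D)
  have := artinian (Z := Z) (L := L) (D := D)
  have : IsScalarTower D (L ⊗[Z] D) (L ⊗[Z] D) := towerD
  have : Module.Finite (L ⊗[Z] D) (Row ψ) :=
    Module.Finite.of_restrictScalars_finite D (L ⊗[Z] D) (Row ψ)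
  obtain ⟨m, ⟨e⟩⟩ := (isotypicOfType I (Row ψ)).linearEquiv_fun
  refine ⟨m, ⟨e⟩, ?_⟩
  rw [← finrank_fun_ideal, ← (e.restrictScalars D).finrank_eq]
  exact (Module.finrank_fin_fun D).symm

omit ψ in
lemma finrank_dvd (I : Ideal (L ⊗[Z] D)) [IsSimpleModule (L ⊗[Z] D) I] :
    Module.finrank D I ∣ Module.finrank Z L := by
  have := isSimple (Z := Z) (L := L) (D := D)
  have := artinian (Z := Z) (L := L) (D := D)
  have : IsScalarTower D (L ⊗[Z] D) (L ⊗[Z] D) := towerD
  obtain ⟨m, ⟨e⟩⟩ := (isotypicOfType I (L ⊗[Z] D)).linearEquiv_fun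
  refine ⟨m, ?_⟩
  rw [← finrankD (D := D), (e.restrictScalars D).finrank_eq, finrank_fun_ideal, mul_comm]

omit ψ [Algebra.IsCentral Z D] in
lemma exists_rep (I : Ideal (L ⊗[Z] D)) :
    Nonempty (L →ₐ[Z] Matrix (Fin (Module.finrank D I)) (Fin (Module.finrank D I)) D) := by
  have := finiteD (Z := Z) (L := L) (D := D)
  have : IsScalarTower D (L ⊗[Z] D) (L ⊗[Z] D) := towerD
  have : Module.Finite D I :=
    Module.Finite.of_injective (I.subtype.restrictScalars D) Subtype.val_injective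
  let b := Module.finBasis D I
  let f : L → Matrix (Fin (Module.finrank D I)) (Fin (Module.finrank D I)) D :=
    fun l => Matrix.of fun i j => b.repr ((l ⊗ₜ[Z] (1 : D)) • b i) j
  have hcomm : ∀ (l : L) (d : D) (v : I),
      (l ⊗ₜ[Z] (1 : D)) • d • v = d • (l ⊗ₜ[Z] (1 : D)) • v := by
    intro l d v
    have h : ∀ w : I, d • w = ((1 : L) ⊗ₜ[Z] d) • w := fun w => rfl
    rw [h, h, smul_smul, smul_smul]
    simp
  have hadd : ∀ a b', f (a + b') = f a + f b' := fun a b' => by
    ext i j; simp [f, TensorProduct.add_tmul, add_smul]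
  have hone : f 1 = 1 := by
    ext i j
    simp [f, ← Algebra.TensorProduct.one_def, Matrix.one_apply, Finsupp.single_apply]
  have hmul : ∀ a c, f (a * c) = f a * f c := by
    intro a c
    ext i j
    have e : ((a * c) ⊗ₜ[Z] (1 : D)) • b i
        = ∑ k, b.repr ((a ⊗ₜ[Z] (1 : D)) • b i) k • (c ⊗ₜ[Z] (1 : D)) • b k := by
      conv_lhs => rw [mul_comm, ← one_mul (1 : D), ← Algebra.TensorProduct.tmul_mul_tmul,
        mul_smul, ← b.sum_repr ((a ⊗ₜ[Z] (1 : D)) • b i), Finset.smul_sum]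
      simp [hcomm]
    simp [f, e, Matrix.mul_apply]
  have halg : ∀ z : Z, f (algebraMap Z L z) = algebraMap Z _ z := by
    intro z
    have hz : ∀ v : I, ((algebraMap Z L z) ⊗ₜ[Z] (1 : D)) • v = (algebraMap Z D z) • v := by
      intro v
      have h : ∀ (d : D) (w : I), d • w = ((1 : L) ⊗ₜ[Z] d) • w := fun d w => rfl
      rw [h, Algebra.algebraMap_eq_smul_one, Algebra.algebraMap_eq_smul_one,
        TensorProduct.smul_tmul]
    ext i j
    simp only [f, Matrix.of_apply, hz, map_smul, Finsupp.smul_apply, Module.Basis.repr_self,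
      Matrix.algebraMap_matrix_apply, Finsupp.single_apply, smul_eq_mul, mul_ite, mul_one, mul_zero]
  exact ⟨{ toFun := f, map_one' := hone, map_mul' := hmul,
           map_zero' := by ext i j; simp [f], map_add' := hadd, commutes' := halg }⟩

omit [Algebra.IsCentral Z D] [FiniteDimensional Z L] in
lemma exists_extension (I : Ideal (L ⊗[Z] D)) {m : ℕ}
    (e : Row ψ ≃ₗ[L ⊗[Z] D] (Fin m → I)) {M : Type u} [Field M] [Algebra Z M] [Algebra L M]
    [IsScalarTower Z L M] (ψM : M →ₐ[Z] Matrix (Fin n) (Fin n) D)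
    (h : ∀ l, ψ l = ψM (algebraMap L M l)) :
    Nonempty (M →ₐ[L] Matrix (Fin m) (Fin m) (Module.End (L ⊗[Z] D) I)ᵐᵒᵖ) := by
  let S : M → Row ψ → Row ψ := fun μ v => (Matrix.vecMul (v : Fin n → D) (ψM μ) : Fin n → D)
  have hadd : ∀ μ v w, S μ (v + w) = S μ v + S μ w := fun μ v w => Matrix.add_vecMul _ v w
  have hzero : ∀ μ, S μ 0 = 0 := fun μ => Matrix.zero_vecMul _
  have hS : ∀ l v, S (algebraMap L M l) v = (l ⊗ₜ[Z] (1 : D)) • v := fun l v => by
    rw [row_tmul_one, h]
  have hcomp : ∀ a b v, S a (S b v) = S (b * a) v := fun a b v => by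
    show Matrix.vecMul (Matrix.vecMul (v : Fin n → D) (ψM b)) (ψM a) = _
    refine (Matrix.vecMul_vecMul (v : Fin n → D) (ψM b) (ψM a)).trans ?_
    rw [← map_mul]
  have hd : ∀ μ (d : D) v, S μ (d • v) = d • S μ v := fun μ d v => Matrix.smul_vecMul d _ _
  have htm : ∀ (l : L) (d : D) (v : Row ψ),
      (l ⊗ₜ[Z] d) • v = S (algebraMap L M l) (d • v) := fun l d v => by
    rw [hS, ← row_one_tmul ψ d v, smul_smul]
    simp
  let T : M → Module.End (L ⊗[Z] D) (Row ψ) := fun μ =>
    { toFun := S μ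
      map_add' := hadd μ
      map_smul' := fun x v => by
        simp only [RingHom.id_apply]
        induction x using TensorProduct.induction_on with
        | zero => rw [zero_smul, zero_smul, hzero]
        | add x y hx hy => rw [add_smul, add_smul, hadd, hx, hy]
        | tmul l d => rw [htm, htm, hcomp, ← hd, hcomp, mul_comm] }
  let τ : M →ₐ[L] Module.End (L ⊗[Z] D) (Row ψ) :=
    { toFun := T
      map_one' := LinearMap.ext fun v => by
        show Matrix.vecMul (v : Fin n → D) (ψM 1) = _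
        rw [map_one]; exact Matrix.vecMul_one _
      map_mul' := fun a b => LinearMap.ext fun v => by
        show S (a * b) v = S a (S b v)
        rw [hcomp, mul_comm]
      map_zero' := LinearMap.ext fun v => by
        show Matrix.vecMul (v : Fin n → D) (ψM 0) = _
        rw [map_zero]; exact Matrix.vecMul_zero _
      map_add' := fun a b => LinearMap.ext fun v => by
        show Matrix.vecMul (v : Fin n → D) (ψM (a + b)) = _
        rw [map_add]; exact Matrix.vecMul_add _ _ _
      commutes' := fun l => LinearMap.ext fun v => by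
        show S (algebraMap L M l) v = (l ⊗ₜ[Z] (1 : D)) • v
        exact hS l v }
  let σ : M →ₐ[L] Matrix (Fin m) (Fin m) (Module.End (L ⊗[Z] D) I) :=
    ((endVecAlgEquivMatrixEnd (Fin m) L (L ⊗[Z] D) I).toAlgHom.comp
      (e.conjAlgEquiv L).toAlgHom).comp τ
  exact ⟨(AlgEquiv.mopMatrix (R := L)).symm.toAlgHom.comp
    (σ.toOpposite fun a b => (Commute.all a b).map σ)⟩

omit ψ in
/-- All data produced by restricting along `L/Z`. -/
theorem exists_step [Uncountable Z] [Algebra.IsAlgebraic Z D] :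
    ∃ (D' : Type u) (_ : DivisionRing D') (_ : Algebra L D') (δ r : ℕ),
      Algebra.IsCentral L D' ∧ Algebra.IsAlgebraic L D' ∧ δ ∣ Module.finrank Z L ∧
      Nonempty (L →ₐ[Z] Matrix (Fin δ) (Fin δ) D) ∧
      Nonempty (L ⊗[Z] D ≃ₐ[L] Matrix (Fin r) (Fin r) D') ∧
      ∀ (n : ℕ) (ψ : L →ₐ[Z] Matrix (Fin n) (Fin n) D), ∃ m, n = m * δ ∧
        ∀ (M : Type u) [Field M] [Algebra Z M] [Algebra L M] [IsScalarTower Z L M]
          (ψM : M →ₐ[Z] Matrix (Fin n) (Fin n) D), (∀ l, ψ l = ψM (algebraMap L M l)) →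
          Nonempty (M →ₐ[L] Matrix (Fin m) (Fin m) D') := by
  classical
  have := isSimple (Z := Z) (L := L) (D := D)
  have := artinian (Z := Z) (L := L) (D := D)
  obtain ⟨r, hr, I, hI, ⟨e⟩⟩ :=
    IsSimpleRing.exists_algEquiv_matrix_end_mulOpposite L (L ⊗[Z] D)
  let A := (Module.End (L ⊗[Z] D) I)ᵐᵒᵖ
  let sc : A →ₐ[L] Matrix (Fin r) (Fin r) A := Matrix.scalarAlgHom (Fin r) L
  have hinj : Function.Injective sc := fun a b h => by
    have := congrFun (congrFun h 0) 0
    simpa [sc] using this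
  have : Algebra.IsCentral L (L ⊗[Z] D) := isCentral
  have hcent : Algebra.IsCentral L A := by
    have hM : Algebra.IsCentral L (Matrix (Fin r) (Fin r) A) :=
      Algebra.IsCentral.of_algEquiv L _ _ e
    refine ⟨fun a ha => ?_⟩
    have : sc a ∈ Subalgebra.center L (Matrix (Fin r) (Fin r) A) := by
      rw [Subalgebra.mem_center_iff] at ha ⊢
      intro B
      ext i j
      simp [sc, ha]
    obtain ⟨l, hl⟩ := (Algebra.IsCentral.mem_center_iff L).1 this
    rw [← sc.commutes] at hl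
    exact Algebra.mem_bot.2 ⟨l, (hinj hl).symm⟩
  have halg : Algebra.IsAlgebraic L A := by
    have := isAlgebraic_tensor (F := Z) (L := L) (D := D)
    exact ⟨fun a => (isAlgebraic_algHom_iff sc hinj).1 <| by
      obtain ⟨y, hy⟩ := e.surjective (sc a)
      rw [← hy]
      exact (isAlgebraic_algHom_iff e.toAlgHom e.injective).2 (Algebra.IsAlgebraic.isAlgebraic y)⟩
  refine ⟨A, inferInstance, inferInstance, Module.finrank D I, r, hcent, halg, finrank_dvd I,
    exists_rep I, ⟨e⟩, fun n ψ => ?_⟩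
  obtain ⟨m, ⟨e'⟩, hm⟩ := row_decompose ψ I
  exact ⟨m, hm, fun M _ _ _ _ ψM h => exists_extension ψ I e' ψM h⟩

omit ψ in
/-- Two embeddings of `L` in `D` are conjugate. -/
theorem exists_conj (φ₁ φ₂ : L →ₐ[Z] D) : ∃ x : D, x ≠ 0 ∧ ∀ l, φ₁ l * x = x * φ₂ l := by
  have := isSimple (Z := Z) (L := L) (D := D)
  have := artinian (Z := Z) (L := L) (D := D)
  obtain ⟨r, hr, I, hI, -⟩ :=
    IsSimpleRing.exists_algEquiv_matrix_end_mulOpposite L (L ⊗[Z] D)
  let ψ₁ := (Matrix.scalarAlgHom (Fin 1) Z).comp φ₁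
  let ψ₂ := (Matrix.scalarAlgHom (Fin 1) Z).comp φ₂
  obtain ⟨m₁, ⟨e₁⟩, h₁⟩ := row_decompose ψ₁ I
  obtain ⟨m₂, ⟨e₂⟩, h₂⟩ := row_decompose ψ₂ I
  have hm₁ : m₁ = 1 := Nat.eq_one_of_mul_eq_one_right h₁.symm
  have hm₂ : m₂ = 1 := Nat.eq_one_of_mul_eq_one_right h₂.symm
  subst hm₁ hm₂
  let f := e₁.trans e₂.symm
  let one : Row ψ₁ := (fun _ => (1 : D) : Fin 1 → D)
  let w : Fin 1 → D := f one
  refine ⟨w 0, ?_, fun l => ?_⟩
  · intro h
    have h0 : f one = 0 := funext fun i : Fin 1 => by rw [Subsingleton.elim i 0]; exact h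
    rw [map_eq_zero_iff f f.injective] at h0
    exact one_ne_zero (congrFun h0 (0 : Fin 1))
  · have e : (l ⊗ₜ[Z] (1 : D)) • one = ((1 : L) ⊗ₜ[Z] φ₁ l) • one := by
      rw [row_tmul_one, row_one_tmul]
      funext i
      show Matrix.vecMul (fun _ => (1 : D)) (ψ₁ l) i = φ₁ l * 1
      simp [ψ₁, Matrix.vecMul, dotProduct, Fin.eq_zero i]
    have := congrArg f e
    rw [map_smul, map_smul, row_tmul_one, row_one_tmul] at this
    have h := congrFun this (0 : Fin 1)
    change Matrix.vecMul w (ψ₂ l) 0 = φ₁ l * w 0 at h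
    rw [← h]
    simp [ψ₂, Matrix.vecMul, dotProduct]

end Vale.Agent.P199
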