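import Vale.Agent.P199.Main
import Mathlib.Order.Filter.FilterProduct
import Mathlib.RingTheory.LittleWedderburn
import Mathlib.FieldTheory.Finite.GaloisField
import Mathlib.FieldTheory.IsAlgClosed.AlgebraicClosure
import Mathlib.Data.Fintype.CardEmbedding
import Mathlib.SetTheory.Cardinal.Continuum

/-!
Ultraproducts of finite fields have no noncommutative finite-dimensional division algebras.
-/

universe u

namespace Vale.Agent.P199

variable {β : Type u} [Field β] (U : Ultrafilter ℕ) (S : ℕ → Subfield β)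

/-- The ultraproduct of a sequence of subfields `S i` of `β` along `U`, realised as the subfield
of the ultrapower of `β` consisting of the germs of sequences with `i`-th term in `S i`. -/
def ultraSubfield : Subfield (Filter.Germ (U : Filter ℕ) β) where
  carrier := {x | ∃ f : ℕ → β, (∀ i, f i ∈ S i) ∧ (f : Filter.Germ (U : Filter ℕ) β) = x}
  one_mem' := ⟨1, fun i => (S i).one_mem, rfl⟩
  zero_mem' := ⟨0, fun i => (S i).zero_mem, rfl⟩
  add_mem' := by
    rintro _ _ ⟨f, hf, rfl⟩ ⟨g, hg, rfl⟩
    exact ⟨f + g, fun i => (S i).add_mem (hf i) (hg i), rfl⟩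
  mul_mem' := by
    rintro _ _ ⟨f, hf, rfl⟩ ⟨g, hg, rfl⟩
    exact ⟨f * g, fun i => (S i).mul_mem (hf i) (hg i), rfl⟩
  neg_mem' := by
    rintro _ ⟨f, hf, rfl⟩
    exact ⟨-f, fun i => (S i).neg_mem (hf i), rfl⟩
  inv_mem' := by
    rintro _ ⟨f, hf, rfl⟩
    exact ⟨f⁻¹, fun i => (S i).inv_mem (hf i), rfl⟩

/-- the projection from sequences -/
def toUltra : (∀ i, S i) →+* ultraSubfield U S where
  toFun f := ⟨((fun i => (f i : β)) : ℕ → β), fun i => (f i : β), fun i => (f i).2, rfl⟩
  map_one' := rfl
  map_mul' _ _ := rfl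
  map_zero' := rfl
  map_add' _ _ := rfl

lemma toUltra_surjective : Function.Surjective (toUltra U S) := by
  rintro ⟨_, f, hf, rfl⟩
  exact ⟨fun i => ⟨f i, hf i⟩, rfl⟩

lemma toUltra_eq_iff {f g : ∀ i, S i} :
    toUltra U S f = toUltra U S g ↔ ∀ᶠ i in (U : Filter ℕ), f i = g i :=
  Subtype.ext_iff.trans <| Filter.Germ.coe_eq.trans
    (Filter.eventually_congr (Filter.Eventually.of_forall fun _ => Subtype.ext_iff.symm))

lemma mapMatrix_eq_iff {ι : Type*} [Fintype ι] [DecidableEq ι] {A B : Matrix ι ι (∀ i, S i)} :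
    (toUltra U S).mapMatrix A = (toUltra U S).mapMatrix B ↔
      ∀ᶠ i in (U : Filter ℕ), (Pi.evalRingHom _ i).mapMatrix A = (Pi.evalRingHom _ i).mapMatrix B := by
  simp only [← Matrix.ext_iff, RingHom.mapMatrix_apply, Matrix.map_apply, toUltra_eq_iff,
    Filter.eventually_all, Pi.evalRingHom_apply]

theorem commDiv_ultraSubfield (hS : ∀ i, Finite (S i)) : CommDiv (ultraSubfield U S) := by
  classical
  intro B _ _ _ x y
  let b := Module.finBasis (ultraSubfield U S) B
  let μ := Algebra.leftMulMatrix b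
  have hμ : Function.Injective μ := Algebra.leftMulMatrix_injective b
  have : Nonempty (Fin (Module.finrank (ultraSubfield U S) B)) :=
    Fin.pos_iff_nonempty.1 Module.finrank_pos
  let π := toUltra U S
  let sec := Function.surjInv (toUltra_surjective U S)
  have hsec : ∀ a, π (sec a) = a := Function.surjInv_eq (toUltra_surjective U S)
  let A := fun j => (μ (b j)).map sec
  have hA : ∀ j, π.mapMatrix (A j) = μ (b j) := fun j => by ext p q; simp [A, hsec]
  let comb := fun c : Fin _ → (∀ i, S i) =>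
    ∑ j, (Matrix.scalar (Fin (Module.finrank (ultraSubfield U S) B)) (c j)) * A j
  have hcomb : ∀ c, π.mapMatrix (comb c) = μ (∑ j, π (c j) • b j) := fun c => by
    simp only [comb, map_sum, map_mul, hA, map_smul]
    refine Finset.sum_congr rfl fun j _ => ?_
    ext p q
    simp [Matrix.scalar_apply]
  let ev := fun i => (Pi.evalRingHom (fun i => S i) i).mapMatrix
    (m := Fin (Module.finrank (ultraSubfield U S) B))
  let W := fun i => Submodule.span (S i) (Set.range fun j => ev i (A j))
  have hev : ∀ i c, ev i (comb c) = ∑ j, c j i • ev i (A j) := fun i c => by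
    simp only [comb, map_sum, map_mul]
    refine Finset.sum_congr rfl fun j _ => ?_
    ext p q
    simp [ev, Matrix.scalar_apply, Matrix.diagonal_apply, Matrix.mul_apply]
  have hmemW : ∀ i c, ev i (comb c) ∈ W i := fun i c => by
    rw [hev]
    exact sum_mem fun j _ => Submodule.smul_mem _ _ (Submodule.subset_span ⟨j, rfl⟩)
  have hone : ∀ᶠ i in (U : Filter ℕ), (1 : Matrix _ _ (S i)) ∈ W i := by
    have h : π.mapMatrix 1 = π.mapMatrix (comb fun j => sec (b.repr 1 j)) := by
      rw [hcomb]; simp only [hsec]; rw [b.sum_repr]; simp [μ]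
    filter_upwards [(mapMatrix_eq_iff U S).1 h] with i hi
    rw [map_one] at hi
    rw [hi]
    exact hmemW i _
  have hmul : ∀ᶠ i in (U : Filter ℕ), ∀ j l, ev i (A j) * ev i (A l) ∈ W i := by
    simp only [Filter.eventually_all]
    intro j l
    have h : π.mapMatrix (A j * A l) = π.mapMatrix (comb fun k => sec (b.repr (b j * b l) k)) := by
      rw [hcomb, map_mul, hA, hA, ← map_mul]; simp only [hsec]; rw [b.sum_repr]
    filter_upwards [(mapMatrix_eq_iff U S).1 h] with i hi
    rw [map_mul] at hi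
    rw [hi]
    exact hmemW i _
  have hdom : ∀ᶠ i in (U : Filter ℕ), ∀ P ∈ W i, ∀ Q ∈ W i, P * Q = 0 → P = 0 ∨ Q = 0 := by
    by_contra hnot
    rw [← Ultrafilter.eventually_not] at hnot
    have hbad : ∀ᶠ i in (U : Filter ℕ), ∃ c d : Fin _ → S i,
        (∑ j, c j • ev i (A j)) ≠ 0 ∧ (∑ j, d j • ev i (A j)) ≠ 0 ∧
          (∑ j, c j • ev i (A j)) * (∑ j, d j • ev i (A j)) = 0 := by
      filter_upwards [hnot] with i hi
      push Not at hi
      obtain ⟨P, hP, Q, hQ, hPQ, hP0, hQ0⟩ := hi
      obtain ⟨c, rfl⟩ := (Submodule.mem_span_range_iff_exists_fun _).1 hP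
      obtain ⟨d, rfl⟩ := (Submodule.mem_span_range_iff_exists_fun _).1 hQ
      exact ⟨c, d, hP0, hQ0, hPQ⟩
    have hall : ∀ i, ∃ c d : Fin (Module.finrank (ultraSubfield U S) B) → S i,
        (∃ c' d' : Fin _ → S i,
          (∑ j, c' j • ev i (A j)) ≠ 0 ∧ (∑ j, d' j • ev i (A j)) ≠ 0 ∧
            (∑ j, c' j • ev i (A j)) * (∑ j, d' j • ev i (A j)) = 0) →
          (∑ j, c j • ev i (A j)) ≠ 0 ∧ (∑ j, d j • ev i (A j)) ≠ 0 ∧
            (∑ j, c j • ev i (A j)) * (∑ j, d j • ev i (A j)) = 0 := by
      intro i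
      by_cases h : ∃ c' d' : Fin _ → S i,
          (∑ j, c' j • ev i (A j)) ≠ 0 ∧ (∑ j, d' j • ev i (A j)) ≠ 0 ∧
            (∑ j, c' j • ev i (A j)) * (∑ j, d' j • ev i (A j)) = 0
      · obtain ⟨c, d, hcd⟩ := h
        exact ⟨c, d, fun _ => hcd⟩
      · exact ⟨0, 0, fun h' => absurd h' h⟩
    choose c d hcd using hall
    let p := ∑ j, π (fun i => c i j) • b j
    let q := ∑ j, π (fun i => d i j) • b j
    have hpq : p * q = 0 := by
      apply hμ
      rw [map_mul, map_zero, ← hcomb, ← hcomb, ← map_mul, ← map_zero π.mapMatrix,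
        mapMatrix_eq_iff]
      filter_upwards [hbad] with i hi
      show ev i _ = ev i 0
      rw [map_mul, map_zero, hev, hev]
      exact (hcd i hi).2.2
    obtain ⟨i, hi, hi'⟩ : ∃ i, ((∃ c' d' : Fin _ → S i,
          (∑ j, c' j • ev i (A j)) ≠ 0 ∧ (∑ j, d' j • ev i (A j)) ≠ 0 ∧
            (∑ j, c' j • ev i (A j)) * (∑ j, d' j • ev i (A j)) = 0) ∧
        (ev i (comb fun j i => c i j) = ev i 0 ∨ ev i (comb fun j i => d i j) = ev i 0)) := by
      apply Filter.Eventually.exists (f := (U : Filter ℕ))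
      rcases mul_eq_zero.1 hpq with h | h
      · have h' : π.mapMatrix (comb fun j i => c i j) = π.mapMatrix 0 := by
          rw [hcomb, map_zero]; show μ p = 0; rw [h, map_zero]
        exact hbad.and (((mapMatrix_eq_iff U S).1 h').mono fun i hi => Or.inl hi)
      · have h' : π.mapMatrix (comb fun j i => d i j) = π.mapMatrix 0 := by
          rw [hcomb, map_zero]; show μ q = 0; rw [h, map_zero]
        exact hbad.and (((mapMatrix_eq_iff U S).1 h').mono fun i hi => Or.inr hi)
    rw [map_zero, hev, hev] at hi'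
    rcases hi' with h | h
    · exact (hcd i hi).1 h
    · exact (hcd i hi).2.1 h
  have hcomm : ∀ j l, b j * b l = b l * b j := by
    intro j l
    apply hμ
    rw [map_mul, map_mul, ← hA, ← hA, ← map_mul, ← map_mul, mapMatrix_eq_iff]
    filter_upwards [hone, hmul, hdom] with i h1 h2 h3
    show ev i (A j * A l) = ev i (A l * A j)
    rw [map_mul, map_mul]
    have hW : ∀ P Q, P ∈ W i → Q ∈ W i → P * Q ∈ W i := by
      intro P Q hP hQ
      induction hP using Submodule.span_induction with
      | zero => simp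
      | add u v _ _ hu hv => rw [add_mul]; exact add_mem hu hv
      | smul r u _ hu => rw [smul_mul_assoc]; exact Submodule.smul_mem _ _ hu
      | mem u hu =>
        obtain ⟨j', rfl⟩ := hu
        induction hQ using Submodule.span_induction with
        | zero => simp
        | add u v _ _ hu hv => rw [mul_add]; exact add_mem hu hv
        | smul r u _ hu => rw [mul_smul_comm]; exact Submodule.smul_mem _ _ hu
        | mem u hu => obtain ⟨l', rfl⟩ := hu; exact h2 j' l'
    let T := (W i).toSubalgebra h1 hW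
    have := hS i
    have : NoZeroDivisors T := ⟨fun {P Q} h =>
      (h3 P.1 P.2 Q.1 Q.2 (congrArg Subtype.val h)).imp Subtype.ext Subtype.ext⟩
    have : IsDomain T := NoZeroDivisors.to_isDomain T
    exact congrArg Subtype.val ((Finite.isDomain_to_isField T).mul_comm
      ⟨_, Submodule.subset_span ⟨j, rfl⟩⟩ ⟨_, Submodule.subset_span ⟨l, rfl⟩⟩)
  rw [← b.sum_repr x, ← b.sum_repr y, Finset.sum_mul_sum, Finset.sum_mul_sum, Finset.sum_comm]
  exact Finset.sum_congr rfl fun l _ => Finset.sum_congr rfl fun j _ => by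
    rw [smul_mul_smul_comm, smul_mul_smul_comm, hcomm, mul_comm]

theorem uncountable_ultraSubfield (hU : (U : Filter ℕ) ≤ Filter.cofinite)
    (hS : ∀ i, Finite (S i)) (hcard : ∀ i, 2 ^ i ≤ Nat.card (S i)) :
    Uncountable (ultraSubfield U S) := by
  classical
  have hg : ∀ n, Nonempty ((Fin n → Bool) ↪ S n) := by
    intro n
    have := hS n
    have := Fintype.ofFinite (S n)
    refine Function.Embedding.nonempty_of_card_le ?_
    simpa [Nat.card_eq_fintype_card] using hcard n
  let g := fun n => (hg n).some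
  let F : (ℕ → Bool) → ultraSubfield U S := fun c => toUltra U S fun n => g n fun i => c i
  have hF : Function.Injective F := by
    intro c c' h
    funext m
    have h1 := (toUltra_eq_iff U S).1 h
    have h2 : ∀ᶠ n in (U : Filter ℕ), m < n := by
      apply hU
      rw [Nat.cofinite_eq_atTop]
      exact Filter.eventually_gt_atTop m
    obtain ⟨n, hn, hmn⟩ := (h1.and h2).exists
    exact congrFun ((g n).injective hn) ⟨m, hmn⟩
  have : Uncountable (ℕ → Bool) := by
    rw [← Cardinal.aleph0_lt_mk_iff, Cardinal.mk_arrow]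
    simpa using Cardinal.aleph0_lt_continuum
  exact hF.uncountable

theorem not_isAlgClosed_ultraSubfield (hS : ∀ i, Finite (S i)) :
    ¬ IsAlgClosed (ultraSubfield U S) := by
  intro h
  have hc : ∀ i, ∃ c : S i, ∀ r : S i, r * r - r ≠ c := by
    intro i
    have := hS i
    by_contra hne
    push Not at hne
    have hinj := (Finite.injective_iff_surjective (f := fun r : S i => r * r - r)).2 hne
    exact one_ne_zero (hinj (show (1 : S i) * 1 - 1 = 0 * 0 - 0 by simp))
  choose c hc using hc
  let C := toUltra U S c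
  obtain ⟨r, hr⟩ := IsAlgClosed.exists_root
    (Polynomial.X * Polynomial.X - Polynomial.X - Polynomial.C C) (by
      rw [show Polynomial.X * Polynomial.X - Polynomial.X - Polynomial.C C
        = Polynomial.C 1 * Polynomial.X ^ 2 + Polynomial.C (-1) * Polynomial.X + Polynomial.C (-C) by
          simp [sq]; ring, Polynomial.degree_quadratic one_ne_zero]
      decide)
  obtain ⟨f, rfl⟩ := toUltra_surjective U S r
  simp only [Polynomial.IsRoot.def, Polynomial.eval_sub, Polynomial.eval_mul, Polynomial.eval_X,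
    Polynomial.eval_C, sub_eq_zero] at hr
  rw [← map_mul, ← map_sub, toUltra_eq_iff] at hr
  obtain ⟨i, hi⟩ := hr.exists
  exact hc i (f i) hi

theorem exists_finite_subfields :
    ∃ (β : Type) (_ : Field β) (S : ℕ → Subfield β),
      (∀ i, Finite (S i)) ∧ ∀ i, 2 ^ i ≤ Nat.card (S i) := by
  have := Fact.mk Nat.prime_two
  let β := AlgebraicClosure (ZMod 2)
  let φ := fun n => (IsAlgClosed.lift : GaloisField 2 (n + 1) →ₐ[ZMod 2] β)
  refine ⟨β, inferInstance, fun n => (φ n).toRingHom.fieldRange, fun i => ?_, fun i => ?_⟩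
  · exact Finite.of_surjective (φ i).toRingHom.rangeRestrictField
      (fun ⟨_, x, hx⟩ => ⟨x, Subtype.ext hx⟩)
  · rw [← Nat.card_congr (Equiv.ofBijective (φ i).toRingHom.rangeRestrictField
      ⟨(φ i).toRingHom.rangeRestrictField.injective,
        (fun ⟨_, x, hx⟩ => ⟨x, Subtype.ext hx⟩)⟩), GaloisField.card 2 (i + 1) (by omega)]
    exact Nat.pow_le_pow_right (by norm_num) (by omega)

end Vale.Agent.P199
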